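import Vale.Agent.P284.H894.AE.ClT

/-!
# Entire curves and the growth of the fundamental group of a compact Kähler manifold

Let `X` be a compact connected Kähler manifold.

* If every bounded plurisubharmonic function on a connected Galois covering `E` of `X` is constant, the
  covering group has subexponential growth (and is amenable).
* If `U ⊆ X` is open and at almost every point of `U` the velocities of the entire curves of `X` through
  this point span the tangent space, then the image of `π₁(U)` in `π₁(X)` has subexponential growth (and
  is amenable). The same holds if almost every point of `U` is joined by a chain of entire curves to a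
  point of a fixed countable set.
* If moreover this image has finite index (for instance `U = X`), then `π₁(X)` has subexponential growth
  (and is amenable).
-/

open scoped Manifold ContDiff
open Vale.Agent.P272.K Vale.Agent.P284.H248 Vale.Agent.P284.H894 Vale.Agent.P284.H894.G
open Vale.Agent.P284.H894.V Vale.Agent.P284.H894.F Vale.Agent.P284.H894.AE

namespace Vale.Agent.Results.P284.EntireCurvesGrowth

theorem result {n : ℕ} {X : Type} [TopologicalSpace X] [T2Space X] [CompactSpace X]
    [ConnectedSpace X] [ChartedSpace (Cm n) X] [IsManifold 𝓘(ℂ, Cm n) ω X]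
    (w : Chart n X → Cm n → Matrix (Fin n) (Fin n) ℂ) (hw : IsKahler w) :
    (∀ (E Γ : Type) [TopologicalSpace E] [ConnectedSpace E] [Group Γ] [MulAction Γ E] (p : E → X),
      IsGalois Γ p →
      (∀ u : E → ℝ, IsPsh (n := n) p u → (∃ B : ℝ, ∀ y, |u y| ≤ B) → ∀ y y', u y = u y') →
      SubexpGrowth Γ ∧ Folner Γ) ∧
    (∀ (U : Set X) (x : X) (hx : x ∈ U), IsOpen U →
      (NullSet n {y ∈ U | Submodule.span ℂ (velocities n y) ≠ ⊤} ∨
        ∃ Q : Set X, Q.Countable ∧ NullSet n {y ∈ U | ¬ ∃ q ∈ Q, Chain n X y q}) →
      SubexpGrowth (piImage U x hx) ∧ Folner (piImage U x hx)) ∧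
    (∀ x : X, AECurveConnected n x ∨ AECurveSpanned n x →
      SubexpGrowth (FundamentalGroup X x) ∧ Folner (FundamentalGroup X x)) := by
  refine ⟨fun E Γ _ _ _ _ p hp hL => ?_, fun U x hx hU h => ?_, fun x hx => ?_⟩
  · have h := growth_of_liouville hw E Γ p hp hL
    exact ⟨h, h.folner⟩
  · have h : SubexpGrowth (piImage U x hx) := by
      rcases h with h | ⟨Q, hQ, hQU⟩
      · exact tanConcl n X w hw U x hx hU h
      · exact ae3Concl n X w hw U Q x hx hU hQ hQU
    exact ⟨h, h.folner⟩
  · have h := growth_or tanConcl hw x hx
    exact ⟨h, h.folner⟩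

end Vale.Agent.Results.P284.EntireCurvesGrowth
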