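import Vale.Agent.P284.H894.AE.ClT

/-!
# Compact Kähler manifolds dominated by a map of finite order have virtually abelian fundamental group

Let `X` be a compact connected Kähler manifold of dimension `n` and `Φ : ℂᴺ → X` a nondegenerate
holomorphic map of finite order.

* If `Φ` is surjective, or more generally if `X ∖ Φ(ℂᴺ)` has measure zero, then `π₁(X)` has an abelian
  subgroup of finite index with at most `2 n` generators.
* More generally, this holds if there is an open set `U` such that the image of `π₁(U)` in `π₁(X)` has
  finite index, and either almost every point of `U` is joined by a chain of entire curves to a point of a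
  fixed countable set, or at almost every point of `U` the velocities of the entire curves through this
  point span the tangent space.
* Without any such condition, every amenable quotient of `π₁(X)` has such a subgroup (in particular
  `π₁(X)` does, if it is amenable), and `π₁(X)` has a subgroup `G` of finite index which is an extension
  of `ℤᵐ`, `m ≤ 2 n`, by a finitely generated group `K` all of whose amenable quotients are finite; `K`
  has Kazhdan's property (T), or `G` has a finite-dimensional real representation whose image is not
  virtually solvable.

No linearity, residual finiteness or projectivity is assumed.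
-/

open scoped Manifold ContDiff
open Vale.Agent.P272.K Vale.Agent.P284.H248 Vale.Agent.P284.H894 Vale.Agent.P284.H894.G
open Vale.Agent.P284.H894.V Vale.Agent.P284.H894.F Vale.Agent.P284.H894.AE

namespace Vale.Agent.Results.P284.FiniteOrderAbelian

theorem result {N n : ℕ} {X : Type} [TopologicalSpace X] [T2Space X] [CompactSpace X]
    [ConnectedSpace X] [ChartedSpace (Cm n) X] [IsManifold 𝓘(ℂ, Cm n) ω X]
    (w : Chart n X → Cm n → Matrix (Fin n) (Fin n) ℂ) (hw : IsKahler w)
    (Φ : Cm N → X) (hΦ : HasFiniteOrderN w Φ) :
    (NullSet n (Set.range Φ)ᶜ → ∀ x : X, VirtAbelianRank (FundamentalGroup X x) (2 * n)) ∧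
    (∀ x : X, AECurveConnected n x ∨ AECurveSpanned n x →
      VirtAbelianRank (FundamentalGroup X x) (2 * n)) ∧
    (∀ (x : X) (Q : Type) [Group Q] (q : FundamentalGroup X x →* Q), Function.Surjective q →
      Folner Q → VirtAbelianRank Q (2 * n)) ∧
    (∀ x : X, AbelianByT n (FundamentalGroup X x)) :=
  ⟨fun hs x => part7A ae3Concl hw hΦ hs x, fun x hx => part6T tanConcl hw hΦ x hx,
    part2N hw hΦ, part1N hw hΦ⟩

end Vale.Agent.Results.P284.FiniteOrderAbelian
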