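import Vale.Agent.P284.H894.AE.ClT

/-!
# Compact Kähler manifolds with many entire curves of finite order

Let `X` be a compact connected Kähler manifold.

* A connected Galois covering of `X` whose group does not have Kazhdan's property (T), or is infinite and
  bounded plurisubharmonic functions on the covering are constant, carries a nonconstant pluriharmonic
  function with bounded gradient.
* Suppose that, for some `ρ`, the velocities of the entire curves of order at most `ρ` are Zariski dense at
  ONE point of `X`, or span the tangent space at a somewhere dense set of points. Then the group of every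
  connected Galois covering of `X` has property (T), or a subgroup of finite index which maps onto `ℤ`, or
  a finite-dimensional real representation whose image is not virtually solvable; if it is infinite and
  amenable, it has a subgroup of finite index which maps onto `ℤ`.
* If moreover there is an open set `U` such that the image of `π₁(U)` in `π₁(X)` has finite index, and
  almost every point of `U` is joined by a chain of entire curves to a point of a fixed countable set or at
  almost every point of `U` the velocities of the entire curves span the tangent space, then `π₁(X)` is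
  finite, or has a subgroup of finite index which maps onto `ℤ`; and it has a subgroup of finite index which
  is an extension of `ℤᵐ`, `m ≤ 2 dim X`, by a finitely generated group no subgroup of finite index of
  which maps onto `ℤ`.
* This applies if, for some `ρ`, at almost every point of `X` the velocities of the entire curves of order
  at most `ρ` span the tangent space.
-/

open scoped Manifold ContDiff
open Vale.Agent.P272.K Vale.Agent.P284.H248 Vale.Agent.P284.H894 Vale.Agent.P284.H894.G
open Vale.Agent.P284.H894.V Vale.Agent.P284.H894.F Vale.Agent.P284.H894.AE

namespace Vale.Agent.Results.P284.FiniteOrderVirtualBetti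

theorem result {n : ℕ} {X : Type} [TopologicalSpace X] [T2Space X] [CompactSpace X]
    [ConnectedSpace X] [ChartedSpace (Cm n) X] [IsManifold 𝓘(ℂ, Cm n) ω X]
    (w : Chart n X → Cm n → Matrix (Fin n) (Fin n) ℂ) (hw : IsKahler w) :
    (∀ (E Γ : Type) [TopologicalSpace E] [ConnectedSpace E] [Group Γ] [MulAction Γ E] (p : E → X),
      IsGalois Γ p → ¬ PropertyT Γ → HasPHB p w) ∧
    LiouvilleHarmonic w ∧
    (ManyCurves w →
      (∀ (E Γ : Type) [TopologicalSpace E] [ConnectedSpace E] [Group Γ] [MulAction Γ E] (p : E → X),
        IsGalois Γ p → PropertyT Γ ∨ VirtIndicable Γ ∨ HasNonsolvableRep Γ) ∧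
      AmenableIndicable X ∧
      ∀ x : X,
        (PropertyT (FundamentalGroup X x) ∨ VirtIndicable (FundamentalGroup X x) ∨
          HasNonsolvableRep (FundamentalGroup X x)) ∧
        (Infinite (FundamentalGroup X x) → Folner (FundamentalGroup X x) →
          VirtIndicable (FundamentalGroup X x)) ∧
        (AECurveConnected n x ∨ AECurveSpanned n x →
          (Finite (FundamentalGroup X x) ∨ VirtIndicable (FundamentalGroup X x)) ∧
          AbelianByNonIndicable n (FundamentalGroup X x))) ∧
    (AEFiniteOrderSpanned w → ManyCurves w ∧ ∀ x : X, AECurveSpanned n x) := by
  refine ⟨fun E Γ _ _ _ _ p hp h => phb_of_not_t hw E Γ p hp h, phb_of_liouville hw,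
    fun h₀ => ?_, fun h => ⟨many_of_finite h, spanned_of_finite h⟩⟩
  have hFD := fdAll_of_many hw h₀
  exact ⟨fun E Γ _ _ _ _ p hp => tri hw hFD E Γ p hp,
    fun E Γ _ _ _ _ p hp hi hf => Vale.Agent.P284.H446.K.va2 w hw hFD E Γ p hp hi hf,
    fun x => ⟨tri_pi hw hFD x, Vale.Agent.P284.H446.K.va2_pi w hw hFD x, str_tan tanConcl hw h₀ x⟩⟩

end Vale.Agent.Results.P284.FiniteOrderVirtualBetti
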