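import Vale.Agent.P284.H894.Final

/-!
# An infinite fundamental group forces a pseudo-effective cotangent bundle

Let `X` be a compact connected complex manifold with a positive holomorphic line bundle `L`. If
`π₁(X)` is infinite, there is `w ≥ 1` such that `S^d Ω¹_X ⊗ L^w` has a nonzero holomorphic section
for infinitely many `d`. If `Ω¹_X` is not pseudo-effective, `π₁(X)` is finite.
-/

open scoped Manifold ContDiff
open Vale.Agent.P272.K Vale.Agent.P284.H248 Vale.Agent.P284.H894

namespace Vale.Agent.Results.P284.PsefCotangent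

theorem result {n : ℕ} {X : Type} [TopologicalSpace X] [T2Space X] [CompactSpace X]
    [ConnectedSpace X] [ChartedSpace (Cm n) X] [IsManifold 𝓘(ℂ, Cm n) ω X]
    (L : LineBundle n X) (hL : Positive L) :
    (∀ x : X, Infinite (FundamentalGroup X x) →
      ∃ w : ℕ, 1 ≤ w ∧ ∀ N : ℕ, ∃ d : ℕ, N ≤ d ∧ ∃ s : SymSec L d w, s.Nonzero) ∧
    (¬ PsefCotangent L → ∀ x : X, Finite (FundamentalGroup X x) ∧
      VirtuallyAbelian (FundamentalGroup X x)) :=
  final_cor main2 L hL

end Vale.Agent.Results.P284.PsefCotangent
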